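import Vale.Agent.P014U.Ba.Spq

/-!
# P014U, block B, abstract algebra (helper67): `W = α d` in the shape of the clause `mc`
-/

set_option linter.all false

noncomputable section

namespace Vale.Agent.P014U.Ba

variable [Pp]

open Matrix Submodule Set

theorem card_ann_ge {x : ℤ_[pp]} {a j : ℕ} (h : (pp : ℤ_[pp]) ^ a ∣ x) (hj : a ≤ j) :
    pp ^ a ≤ Nat.card {y : ZMod (pp ^ j) // PadicInt.toZModPow j x * y = 0} := by
  have h0 : ((pp : ℤ_[pp]) ^ a) ≠ 0 := pow_ne_zero _ (Nat.cast_ne_zero.2 pp_ne)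
  have e : ((pp : ℤ_[pp]) ^ a).valuation = a := by
    have := PadicInt.valuation_p_pow_mul (p := pp) a 1 one_ne_zero
    simpa using this
  have h1 := card_ann h0 (j := j) (e.symm ▸ hj)
  rw [e] at h1
  obtain ⟨z, rfl⟩ := h
  rw [← h1]
  exact Nat.card_le_card_of_injective (fun y => ⟨y.1, by
    rw [mul_comm _ z, map_mul, mul_assoc, y.2, mul_zero]⟩)
    fun y y' k => Subtype.ext (congrArg Subtype.val k :)

theorem dvd_val {x : ℤ_[pp]} (hx : x ≠ 0) {a : ℕ} : (pp : ℤ_[pp]) ^ a ∣ x ↔ a ≤ x.valuation := by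
  rw [← PadicInt.mem_span_pow_iff_le_valuation _ hx, Ideal.mem_span_singleton]

theorem card_kr_ge {H : Matrix (Fin 2) (Fin 2) ℤ_[pp]} (h0 : H.det ≠ 0) {a j : ℕ}
    (h : (pp : ℤ_[pp]) ^ a ∣ H.det) (hj : a ≤ j) : pp ^ a ≤ Nat.card (Kr (H.map (PadicInt.toZModPow j))) := by
  obtain ⟨P, P', c, hP, hP', e⟩ := snf H h0
  have ed := congrArg det e
  rw [det_mul, det_mul, det_diagonal, Fin.prod_univ_two] at ed
  have h1 : (pp : ℤ_[pp]) ^ a ∣ c 0 * c 1 := hP'.dvd_mul_left.1 (ed ▸ h.mul_right _)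
  have h2 : c 0 * c 1 ≠ 0 := fun k => mul_ne_zero h0 hP.ne_zero (by rw [ed, k, mul_zero])
  have u : ∀ X : Matrix (Fin 2) (Fin 2) ℤ_[pp], IsUnit X.det →
      IsUnit (X.map (PadicInt.toZModPow j)).det := fun X hX => by
    have := hX.map (PadicInt.toZModPow j)
    rwa [RingHom.map_det] at this
  rw [kr_unit (D := diagonal fun i => PadicInt.toZModPow j (c i)) (u P hP) (u P' hP') (by
    rw [← Matrix.map_mul, e, Matrix.map_mul, diagonal_map (map_zero _)]), kr_diag,
    Fin.prod_univ_two]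
  rw [dvd_val h2, PadicInt.valuation_mul (left_ne_zero_of_mul h2) (right_ne_zero_of_mul h2)] at h1
  have b0 := card_ann_ge ((dvd_val (left_ne_zero_of_mul h2)).2 (min_le_left _ a))
    ((min_le_right _ a).trans hj)
  have b1 := card_ann_ge ((dvd_val (right_ne_zero_of_mul h2)).2 (min_le_left _ a))
    ((min_le_right _ a).trans hj)
  refine le_trans ?_ (Nat.mul_le_mul b0 b1)
  rw [← pow_add]
  exact Nat.pow_le_pow_right pp_pos (by omega)

/-- few relations at one level force independence -/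
theorem ind_of {κ : Type} [Fintype κ] {v w : κ → ℤ_[pp]} {b j : ℕ} (hb : b < j)
    (h : (pp ^ 2) ^ j ≤ pp ^ b * sp (fun k => PadicInt.toZModPow j (v k))
      (fun k => PadicInt.toZModPow j (w k))) (s t : ℤ_[pp]) (e : s • v + t • w = 0) :
    s = 0 ∧ t = 0 := by
  have key : ∀ v w : κ → ℤ_[pp], ∀ x : ℤ_[pp], v = x • w →
      Nat.card ↥(AddSubgroup.zmultiples (fun k => PadicInt.toZModPow j (v k)) ⊔
        AddSubgroup.zmultiples (fun k => PadicInt.toZModPow j (w k))) ≤ pp ^ j := by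
    rintro _ w x rfl
    rw [sup_eq_right.2 (AddSubgroup.zmultiples_le_of_mem (AddSubgroup.mem_zmultiples_iff.2
      ⟨(PadicInt.toZModPow j x).val, funext fun k => by
        show ((PadicInt.toZModPow j x).val : ℤ) • PadicInt.toZModPow j (w k) = _
        simp⟩)), Nat.card_zmultiples]
    refine Nat.le_of_dvd (by have := pp_pos; positivity) (addOrderOf_dvd_of_nsmul_eq_zero (funext fun k => ?_))
    rw [Pi.smul_apply, nsmul_eq_mul, ZMod.natCast_self, zero_mul, Pi.zero_apply]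
  have no : ¬ sp (fun k => PadicInt.toZModPow j (v k)) (fun k => PadicInt.toZModPow j (w k)) ≤
      pp ^ j := fun k => by
    have := h.trans (Nat.mul_le_mul_left _ k)
    rw [← pow_mul, ← pow_add,
      Nat.pow_le_pow_iff_right one_lt] at this
    omega
  by_contra hn
  rcases ValuationRing.dvd_total s t with ⟨x, rfl⟩ | ⟨x, rfl⟩
  · have s0 : s ≠ 0 := fun k => hn ⟨k, by rw [k, zero_mul]⟩
    refine no (key v w (-x) (smul_right_injective _ s0 ?_))
    show s • v = s • (-x) • w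
    rw [eq_neg_of_add_eq_zero_left e]; module
  · have t0 : t ≠ 0 := fun k => hn ⟨by rw [k, zero_mul], k⟩
    refine no ?_
    rw [sp, sup_comm]
    refine key w v (-x) (smul_right_injective _ t0 ?_)
    show t • w = t • (-x) • v
    rw [eq_neg_of_add_eq_zero_right e]; module

theorem mc0 {ι κ : Type} [Fintype ι] [DecidableEq ι] [Fintype κ] [DecidableEq κ]
    (e : κ ≃ ι ⊕ Fin 2) (Q : Matrix ι κ ℤ_[pp]) {v w : κ → ℤ_[pp]} (hv : Q *ᵥ v = 0)
    (hw : Q *ᵥ w = 0) {α : ℤ_[pp]} (h : ∀ C, (C * cl v w).det = α * (st e Q C).det) {b j : ℕ}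
    (hb : b < j) (hj : (pp ^ 2) ^ j ≤ pp ^ b * sp (fun k => PadicInt.toZModPow j (v k))
      (fun k => PadicInt.toZModPow j (w k))) :
    (∀ n, b ≤ n → Nat.card (Kr (Q.map (PadicInt.toZModPow n))) ≤ (pp ^ 2) ^ n * pp ^ b) ∧
      (sp (fun k => PadicInt.toZModPow j (v k)) (fun k => PadicInt.toZModPow j (w k)) *
        Nat.card (Kr (Q.map (PadicInt.toZModPow j))) : ℝ) = (pp ^ 4) ^ j * ‖α‖ := by
  obtain ⟨C1, h1⟩ := ex_C (cl v w) fun s hs => by
    obtain ⟨a, b⟩ := ind_of hb hj _ _ ((cl_mulVec v w s).symm.trans hs)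
    funext i
    fin_cases i
    · exact a
    · exact b
  rw [h] at h1
  have hα := left_ne_zero_of_mul h1
  obtain ⟨C, V, a, ha, -, -, v2, hU, hc, -, hs⟩ := min e Q ⟨C1, right_ne_zero_of_mul h1⟩
  have hn : ‖(C * cl v w).det‖ * pp ^ (a + α.valuation) = 1 := by
    rw [h, norm_mul, pow_add]
    calc _ = (‖(st e Q C).det‖ * pp ^ a) * (‖α‖ * pp ^ α.valuation) := by ring
      _ = 1 := by rw [ha, norm_val hα, mul_one]
  have h0 : (C * cl v w).det ≠ 0 := fun k => by simp [k] at hn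
  have ev : (C * cl v w).det.valuation = a + α.valuation := by
    have := mul_left_cancel₀ (norm_ne_zero_iff.2 h0) ((norm_val h0).trans hn.symm)
    exact Nat.pow_right_injective pp_prime.two_le (by exact_mod_cast this)
  have le : a + α.valuation ≤ b := by
    by_contra k
    have g1 := card_kr_ge h0 (a := b + 1) ((dvd_val h0).2 (by omega)) hb
    have g2 := sp_col ((cl v w).map (PadicInt.toZModPow j))
    have g3 : Kr ((C * cl v w).map (PadicInt.toZModPow j)) ≤
        Kr ((cl v w).map (PadicInt.toZModPow j)) := fun y hy => by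
      rw [mem_Kr, hU _ (mul_cl hv hw), Matrix.map_mul, ← mulVec_mulVec, mem_Kr.1 hy, mulVec_zero]
    have g4 := Nat.mul_le_mul_right (sp (fun k => PadicInt.toZModPow j (v k))
      (fun k => PadicInt.toZModPow j (w k))) (g1.trans (AddSubgroup.card_le_of_le g3))
    have g5 := (g4.trans_eq g2).trans_eq (show (pp ^ j) ^ 2 = (pp ^ 2) ^ j by
      rw [← pow_mul, mul_comm, pow_mul])
    have g6 := Nat.le_of_mul_le_mul_right (g5.trans hj) (Nat.pos_of_ne_zero fun k => by
      rw [k, mul_zero] at hj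
      exact absurd hj (not_le.2 (by have := pp_pos; positivity)))
    rw [Nat.pow_le_pow_iff_right one_lt] at g6
    omega
  refine ⟨fun n k => ?_, ?_⟩
  · rw [hc n (by omega)]
    exact Nat.mul_le_mul_left _ (Nat.pow_le_pow_right pp_pos (by omega))
  · have := hs (C * cl v w) (a + α.valuation) j hn (by omega)
    rw [← hU _ (mul_cl hv hw)] at this
    have t2 : (sp (fun k => PadicInt.toZModPow j (v k)) (fun k => PadicInt.toZModPow j (w k)) *
        pp ^ (a + α.valuation) : ℝ) = (pp ^ 2) ^ j := by exact_mod_cast this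
    rw [hc j (by omega), show (pp : ℝ) ^ 4 = pp ^ 2 * pp ^ 2 by ring, mul_pow]
    push_cast
    rw [pow_add] at t2
    linear_combination (pp ^ 2) ^ j * ‖α‖ * t2 - (pp ^ 2) ^ j * pp ^ a * (sp (fun k => PadicInt.toZModPow j (v k))
      (fun k => PadicInt.toZModPow j (w k)) : ℝ) * norm_val hα

/-- **the clause `mc` for matrices**: `W x = α d` over a domain `Λ`, read through `f : Λ → ℤ₂` -/
theorem mc {Λ ι κ : Type} [CommRing Λ] [IsDomain Λ] [Fintype ι] [DecidableEq ι] [Fintype κ]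
    [DecidableEq κ] (f : Λ →+* ℤ_[pp]) (hf : Function.Surjective f) (e : κ ≃ ι ⊕ Fin 2)
    (Q : Matrix ι κ Λ) {v w : κ → Λ} (hv : Q *ᵥ v = 0) (hw : Q *ᵥ w = 0) {x : Fin 2 → κ → Λ}
    {α : Λ} (d0 : (st e Q (.of x)).det ≠ 0)
    (h : (x 0 ⬝ᵥ v) * (x 1 ⬝ᵥ w) - (x 1 ⬝ᵥ v) * (x 0 ⬝ᵥ w) = α * (st e Q (.of x)).det) {b j : ℕ}
    (hb : b < j) (hj : (pp ^ 2) ^ j ≤ pp ^ b * sp (fun k => PadicInt.toZModPow j (f (v k)))
      (fun k => PadicInt.toZModPow j (f (w k)))) :
    (∀ n, b ≤ n → Nat.card (Kr (Q.map ((PadicInt.toZModPow n).comp f))) ≤ (pp ^ 2) ^ n * pp ^ b) ∧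
      (sp (fun k => PadicInt.toZModPow j (f (v k))) (fun k => PadicInt.toZModPow j (f (w k))) *
        Nat.card (Kr (Q.map ((PadicInt.toZModPow j).comp f))) : ℝ) = (pp ^ 4) ^ j * ‖f α‖ := by
  have h1 := all_C e Q (mul_cl hv hw) d0 (α := α) (by rw [det_cl, h])
  have hm : ∀ z : κ → Λ, Q *ᵥ z = 0 → Q.map f *ᵥ (fun k => f (z k)) = 0 := fun z hz =>
    funext fun i => by
      have := RingHom.map_mulVec f Q z i
      rw [hz, Pi.zero_apply, map_zero] at this
      exact this.symm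
  exact mc0 e (Q.map f) (hm v hv) (hm w hw) (α := f α) (fun C => by
    choose g hg using hf
    have e1 : (C.map g).map f = C := Matrix.ext fun i k => hg _
    have e2 : cl (fun k => f (v k)) (fun k => f (w k)) = (cl v w).map f := by
      ext k i; fin_cases i <;> rfl
    have := congrArg f (h1 (C.map g))
    rwa [map_mul, RingHom.map_det, RingHom.map_det, RingHom.mapMatrix_apply,
      RingHom.mapMatrix_apply, Matrix.map_mul, st_map, e1, ← e2] at this) hb hj

end Vale.Agent.P014U.Ba
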