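import Vale.Agent.P014T.Ba.Lev
import Vale.Agent.P014U.Ba.Cnt

/-!
# P014U, block B, abstract algebra (helper67): the counts in rank zero and one, finite level forms
-/

set_option linter.all false

noncomputable section

namespace Vale.Agent.P014U.Ba

variable [Pp]

export Vale.Agent.P014T.Ba (sp)

open Vale.Agent.P014U.X4S.Ga

variable {Y Z : Type} [AddCommGroup Y] [AddCommGroup Z]

theorem card_ker_coprod (γ x : Dv →+ Z) : Nat.card (γ.coprod x).ker =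
    Nat.card γ.ker * Nat.card (γ.range.comap x) := by
  have h1 := card_map (AddMonoidHom.snd Dv Dv) (γ.coprod x).ker
  have e1 : (γ.coprod x).ker.map (AddMonoidHom.snd Dv Dv) = γ.range.comap x := by
    ext t
    constructor
    · rintro ⟨p, hp, rfl⟩
      exact ⟨-p.1, by rw [map_neg]; exact neg_eq_of_add_eq_zero_right hp⟩
    · rintro ⟨s, hs⟩
      exact ⟨(-s, t), show γ (-s) + x t = 0 by rw [map_neg, hs, neg_add_cancel], rfl⟩
  have e2 : (AddMonoidHom.snd Dv Dv).ker ⊓ (γ.coprod x).ker =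
      γ.ker.map (AddMonoidHom.inl Dv Dv) := by
    ext p
    constructor
    · rintro ⟨h1, h2⟩
      have a1 : p.2 = 0 := h1
      have a2 : γ p.1 + x p.2 = 0 := h2
      rw [a1, map_zero, add_zero] at a2
      exact ⟨p.1, a2, Prod.ext rfl a1.symm⟩
    · rintro ⟨s, hs, rfl⟩
      exact ⟨rfl, show γ s + x 0 = 0 by rw [map_zero, add_zero]; exact hs⟩
  rw [← h1, e1, e2, AddSubgroup.card_map_of_injective (Prod.mk_left_injective 0)]

variable {pr : Y →+ Z →+ Dv} {R : AddSubgroup Y} {lg : Y →+ K} {y0 : Y}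

theorem Dat.hom_zt (h : Dat pr R lg y0) (x : Dv →+ Z) (s : Dv) : x s ∈ Zt pr := by
  obtain ⟨c, hc⟩ := h.ex_zt
  obtain ⟨e, rfl⟩ := dv_div (n := pp ^ c) (by have := pp_pos; positivity) s
  rw [map_nsmul]
  exact hc _

/-- rank zero: the count -/
theorem Dat.zero (h : Dat pr R lg y0) (γ x : Dv →+ Z) (hγ : ∀ s, γ s ∈ Zf pr)
    [Finite ((pr y0).comp x).ker] :
    Nat.card (γ.coprod x).ker * γ.range.relIndex (Zf pr) * Nat.card (Tp Y) =
      Nat.card γ.ker * Nat.card ((pr y0).comp x).ker * (γ.coprod x).range.index *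
        Nat.card ↥(R ⊓ Tp Y) := by
  have hs := onto_dv ((pr y0).comp x)
  have l1 : (γ.coprod x).range ≤ Zt pr := by
    rintro _ ⟨p, rfl⟩
    exact add_mem (h.hom_zt γ _) (h.hom_zt x _)
  have l2 : γ.range ≤ (γ.coprod x).range ⊓ Zf pr := by
    rintro _ ⟨s, rfl⟩
    exact ⟨⟨(s, 0), show γ s + x 0 = _ by rw [map_zero, add_zero]⟩, hγ s⟩
  have e1 : Zt pr = Zf pr ⊔ (γ.coprod x).range := by
    refine le_antisymm (fun z hz => ?_) (sup_le Zf_le l1)
    obtain ⟨t, ht⟩ := hs (pr y0 z)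
    refine AddSubgroup.mem_sup.2 ⟨z - x t, h.zf_iff.2 ⟨sub_mem hz (h.hom_zt x t), ?_⟩, x t,
      ⟨(0, t), show γ 0 + x t = _ by rw [map_zero, zero_add]⟩, sub_add_cancel _ _⟩
    rw [map_sub, ← ht]
    exact sub_self _
  have e2 : ((pr y0).comp x).ker.map x ⊔ γ.range = (γ.coprod x).range ⊓ Zf pr := by
    refine le_antisymm (sup_le ?_ l2) ?_
    · rintro _ ⟨t, ht, rfl⟩
      exact ⟨⟨(0, t), show γ 0 + x t = _ by rw [map_zero, zero_add]⟩,
        h.zf_iff.2 ⟨h.hom_zt x t, ht⟩⟩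
    · rintro _ ⟨⟨p, rfl⟩, hp⟩
      refine AddSubgroup.mem_sup.2 ⟨x p.2, ⟨p.2, ?_, rfl⟩, γ p.1, ⟨p.1, rfl⟩, add_comm _ _⟩
      have : x p.2 ∈ Zf pr := by
        have := (Zf pr).sub_mem hp (hγ p.1)
        rwa [AddMonoidHom.coprod_apply, add_sub_cancel_left] at this
      exact mem_Zf.1 this y0
  have l3 : γ.range.comap x ≤ ((pr y0).comp x).ker := by
    rintro t ⟨s, hs⟩
    show pr y0 (x t) = 0
    rw [← hs]
    exact mem_Zf.1 (hγ s) y0
  have a1 := card_mul_rel l3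
  rw [AddSubgroup.relIndex_comap, ← AddSubgroup.relIndex_sup_right, e2] at a1
  have a2 := AddSubgroup.relIndex_mul_relIndex _ _ _ l2
    (inf_le_right : (γ.coprod x).range ⊓ Zf pr ≤ Zf pr)
  have a3 := AddSubgroup.relIndex_mul_index l1
  have a4 : (γ.coprod x).range.relIndex (Zt pr) =
      ((γ.coprod x).range ⊓ Zf pr).relIndex (Zf pr) := by
    rw [e1, AddSubgroup.relIndex_sup_right, AddSubgroup.inf_relIndex_right]
  rw [card_ker_coprod, ← a1, ← a2, ← a3, a4, ← h.zt_index]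
  ring

theorem map_tk2 (γ x : Dv →+ Z) (j : ℕ) : (Tk (Dv × Dv) j).map (γ.coprod x) =
    AddSubgroup.zmultiples (γ (u j)) ⊔ AddSubgroup.zmultiples (x (u j)) := by
  refine le_antisymm ?_ (sup_le ?_ ?_)
  · rintro _ ⟨p, hp, rfl⟩
    obtain ⟨a, ha⟩ := tk_gen (k := j) (d := p.1) (congrArg Prod.fst hp)
    obtain ⟨b, hb⟩ := tk_gen (k := j) (d := p.2) (congrArg Prod.snd hp)
    refine AddSubgroup.mem_sup.2 ⟨_, ⟨a, rfl⟩, _, ⟨b, rfl⟩, ?_⟩
    rw [AddMonoidHom.coprod_apply, ha, hb, map_zsmul, map_zsmul]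
  · exact AddSubgroup.zmultiples_le_of_mem ⟨(u j, 0), Prod.ext (u_mem j) (smul_zero _),
      show γ (u j) + x 0 = _ by rw [map_zero, add_zero]⟩
  · exact AddSubgroup.zmultiples_le_of_mem ⟨(0, u j), Prod.ext (smul_zero _) (u_mem j),
      show γ 0 + x (u j) = _ by rw [map_zero, zero_add]⟩

theorem ker_sp (γ x : Dv →+ Z) {j : ℕ} (hk : (γ.coprod x).ker ≤ Tk (Dv × Dv) j) :
    Nat.card (γ.coprod x).ker * sp (γ (u j)) (x (u j)) = (pp ^ 2) ^ j := by
  have := card_map (γ.coprod x) (Tk (Dv × Dv) j)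
  rwa [inf_eq_left.2 hk, map_tk2, card_tk2] at this

theorem fin_ker {γ : Dv × Dv →+ Z} {j : ℕ} (hk : γ.ker ≤ Tk (Dv × Dv) j) : Finite γ.ker :=
  haveI : Finite (Tk (Dv × Dv) j) := Nat.finite_of_card_ne_zero (by rw [card_tk2]; have := pp_pos; positivity)
  Finite.of_injective _ (AddSubgroup.inclusion_injective hk)

theorem mk_mem (c : K) (j f : ℕ) :
    (QuotientAddGroup.mk (c / pp ^ j) : Dv) ∈ Tk Dv f ↔ ‖c‖ * pp ^ j ≤ pp ^ f := by
  rw [mem_Tk, ← QuotientAddGroup.mk_nsmul, mk_zero, nsmul_eq_mul, norm_mul, Nat.cast_pow,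
    norm_div, norm_two_pow, norm_two_pow, div_inv_eq_mul,
    inv_mul_le_iff₀ (by have := pp_pos; positivity), mul_one]

theorem ker_eq (f : Dv →+ Dv) {c : K} {j e : ℕ} (hc : ‖c‖ * pp ^ e = 1) (he : e < j)
    (h : f (u j) = QuotientAddGroup.mk (c / pp ^ j)) : f.ker = Tk Dv e := by
  obtain ⟨d, rfl⟩ := Nat.exists_eq_add_of_lt he
  have n1 : ‖c‖ * pp ^ (e + d + 1) = pp ^ (d + 1) := by
    rw [add_assoc, pow_add, ← mul_assoc, hc, one_mul]
  refine le_antisymm ((le_or _ e).resolve_right fun h1 => ?_) ?_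
  · have h2 : f (u (e + 1)) = 0 := h1 (u_mem _)
    rw [← pow_u d, map_nsmul, show d + (e + 1) = e + d + 1 by ring, h] at h2
    have := (mk_mem c _ d).1 h2
    rw [n1] at this
    exact absurd this (not_le.2 (pow_lt_pow_right₀ one_r (Nat.lt_succ_self d)))
  · rw [tk_eq]
    refine AddSubgroup.zmultiples_le_of_mem ?_
    rw [AddMonoidHom.mem_ker, ← pow_u (d + 1), map_nsmul, show d + 1 + e = e + d + 1 by ring, h]
    exact (mk_mem c _ _).2 n1.le

/-- rank zero at finite level: `(pp ^ 2) ^ j / sp` is the number `i` of relations -/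
theorem Dat.lev0 (h : Dat pr R lg y0) (γ : Dv →+ Z) (hγ : ∀ s, γ s ∈ Zf pr) {g k D j e : ℕ}
    (hg : γ.ker ≤ Tk Dv g) (hD : D ≠ 0) [Finite (Tk Z 1)]
    (low : ∀ j, pp ^ 2 * Nat.card (Tk Z j) ≤ Nat.card (Tk Z (j + 1)))
    (h1 : Nat.card (Tk Z k) = (pp ^ 2) ^ k * D)
    (h2 : Nat.card (Tk Z (k + 1)) = (pp ^ 2) ^ (k + 1) * D) {z : Z} (hz : pp ^ j • pp ^ k • z = 0) {c : K}
    (hp : pr y0 (pp ^ k • z) = QuotientAddGroup.mk (c / pp ^ j)) (hc : ‖c‖ * pp ^ e = 1)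
    (hj : e + g < j) :
    (pp ^ 2) ^ j * γ.range.relIndex (Zf pr) * Nat.card (Tp Y) =
      sp (γ (u j)) (pp ^ k • z) * Nat.card γ.ker * pp ^ e * D * Nat.card ↥(R ⊓ Tp Y) ∧
    γ.range.relIndex (Zf pr) ≠ 0 ∧ ∀ r ∈ R, ∀ n : ℕ, ∃ t ∈ Tp Y, ∃ y, r = t + pp ^ n • y := by
  obtain ⟨x, hx⟩ := ex_hom h.tor (pow_div h.tor low (k := k)
    (by rw [h1, h2]; exact le_of_eq (by ring))) (b := pp ^ k • z) ⟨z, rfl⟩ hz
  have ek := ker_eq ((pr y0).comp x) (j := j) hc (by omega) (by rw [AddMonoidHom.comp_apply, hx, hp])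
  haveI : Finite ((pr y0).comp x).ker := ek ▸ fin_tk e
  have hk : (γ.coprod x).ker ≤ Tk (Dv × Dv) j := fun p hp => by
    have a0 : γ p.1 + x p.2 = 0 := hp
    have a1 : p.2 ∈ Tk Dv e := ek ▸ (show pr y0 (x p.2) = 0 by
      rw [← neg_eq_of_add_eq_zero_right a0, map_neg, mem_Zf.1 (hγ _), neg_zero])
    have a2 : pp ^ e • p.1 ∈ Tk Dv g := hg (by
      rw [AddMonoidHom.mem_ker, map_nsmul, eq_neg_of_add_eq_zero_left a0, smul_neg, ← map_nsmul,
        mem_Tk.1 a1, map_zero, neg_zero])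
    rw [mem_Tk, smul_smul, ← pow_add] at a2
    exact Prod.ext (pow_up (by omega) a2) (pow_up (by omega) a1)
  haveI := fin_ker hk
  haveI := h.fin
  haveI : Finite γ.ker := Finite.of_injective _ (AddSubgroup.inclusion_injective hg)
  haveI : Finite ↥(R ⊓ Tp Y) := Finite.of_injective _ (AddSubgroup.inclusion_injective inf_le_right)
  have a := h.zero γ x hγ
  rw [ek, card_tk, lev h.tor _ hD h1 h2] at a
  refine ⟨?_, fun h0 => ?_, fun r hr n => ?_⟩
  · rw [← ker_sp γ x hk, hx]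
    calc _ = sp (γ (u j)) (pp ^ k • z) *
          (Nat.card (γ.coprod x).ker * γ.range.relIndex (Zf pr) * Nat.card (Tp Y)) := by ring
      _ = _ := by rw [a]; ring
  · rw [h0, mul_zero, zero_mul] at a
    exact Nat.mul_ne_zero (Nat.mul_ne_zero (Nat.mul_ne_zero Nat.card_pos.ne' (by have := pp_pos; positivity)) hD)
      Nat.card_pos.ne' a.symm
  · obtain ⟨m, t, ht, y, e1⟩ := h.gen n r
    obtain ⟨s, hs⟩ := onto_dv ((pr y0).comp x) (u n)
    obtain ⟨i, hi⟩ := h.tor (x s)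
    obtain ⟨m', t', ht', y', e2⟩ := h.gen (n + i) r
    have b := h.rc r hr (x s)
    rw [e2, map_add, map_add, AddMonoidHom.add_apply, AddMonoidHom.add_apply, pr_swap,
      pow_up (Nat.le_add_left i n) hi, map_zero, mem_Zt.1 (h.hom_zt x s) t' ht', map_zsmul,
      AddMonoidHom.zsmul_apply, add_zero, add_zero, show pr y0 (x s) = u n from hs, u_ord] at b
    obtain ⟨q, rfl⟩ := b
    exact ⟨t', ht', q • y0 + pp ^ i • y', by rw [e2]; module⟩

theorem sp_congr {a b b' : Z} {m n : ℤ} (hn : IsCoprime n (pp : ℤ)) (hb : b' ∈ Tp Z) (e : b = m • a + n • b') :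
    sp a b = sp a b' := by
  unfold sp
  have : AddSubgroup.zmultiples a ⊔ AddSubgroup.zmultiples b =
      AddSubgroup.zmultiples a ⊔ AddSubgroup.zmultiples b' := by
    have ma : ∀ L : AddSubgroup Z, a ∈ AddSubgroup.zmultiples a ⊔ L := fun L =>
      AddSubgroup.mem_sup_left (AddSubgroup.mem_zmultiples a)
    have mb : ∀ c : Z, c ∈ AddSubgroup.zmultiples a ⊔ AddSubgroup.zmultiples c := fun c =>
      AddSubgroup.mem_sup_right (AddSubgroup.mem_zmultiples c)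
    refine le_antisymm (sup_le le_sup_left (AddSubgroup.zmultiples_le_of_mem ?_))
      (sup_le le_sup_left (AddSubgroup.zmultiples_le_of_mem ?_))
    · rw [e]
      exact add_mem (zsmul_mem (ma _) _) (zsmul_mem (mb _) _)
    · obtain ⟨k, hk⟩ := hb
      obtain ⟨s, t, hst⟩ : IsCoprime n ((pp : ℤ) ^ k) := hn.pow_right
      have h2 : ((pp : ℤ) ^ k) • b' = 0 := by
        have : (((pp ^ k : ℕ) : ℤ)) • b' = 0 := by rw [natCast_zsmul]; exact hk
        simpa using this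
      have : b' = s • (b - m • a) := by
        calc b' = (s * n + t * pp ^ k) • b' := by rw [hst, one_smul]
          _ = _ := by rw [add_smul, mul_smul t, h2, e]; module
      rw [this]
      exact zsmul_mem (sub_mem (mb _) (zsmul_mem (ma _) _)) _
  rw [this]

theorem range_scale (γ κ : Dv →+ Z) (e : ℕ) :
    (γ.coprod (κ.comp (mu Dv e))).range = (γ.coprod κ).range := by
  ext z
  constructor
  · rintro ⟨p, rfl⟩
    exact ⟨(p.1, pp ^ e • p.2), rfl⟩
  · rintro ⟨p, rfl⟩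
    obtain ⟨t, ht⟩ := dv_div (n := pp ^ e) (by have := pp_pos; positivity) p.2
    exact ⟨(p.1, t), show γ p.1 + κ (pp ^ e • t) = γ p.1 + κ p.2 by rw [ht]⟩

theorem ker_scale (γ κ : Dv →+ Z) (e : ℕ) :
    Nat.card (γ.coprod (κ.comp (mu Dv e))).ker = pp ^ e * Nat.card (γ.coprod κ).ker := by
  have h1 := card_map (mu Dv e) ((γ.range.comap κ).comap (mu Dv e))
  rw [AddSubgroup.map_comap_eq_self_of_surjective (fun d => dv_div (by have := pp_pos; positivity) d), mu_ker,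
    inf_eq_left.2 (fun d hd => by
      rw [AddSubgroup.mem_comap, mu_apply, mem_Tk.1 hd]; exact zero_mem _), card_tk] at h1
  rw [card_ker_coprod, card_ker_coprod, ← AddSubgroup.comap_comap, ← h1]
  ring

/-- rank one at finite level -/
theorem Dat.lev1 (h : Dat pr R lg y0) (γ κ : Dv →+ Z) (hγ : ∀ s, γ s ∈ Zf pr)
    (hκ : ∀ s, κ s ∈ Zf pr) {g k D j e : ℕ} (hg : (γ.coprod κ).ker ≤ Tk (Dv × Dv) g) (hD : D ≠ 0)
    (h1 : Nat.card (Tk Z k) = (pp ^ 2) ^ k * D) (h2 : Nat.card (Tk Z (k + 1)) = (pp ^ 2) ^ (k + 1) * D)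
    {r0 : Y} (h0 : r0 ∈ R) (hx : ∀ r ∈ R, ‖lg r‖ ≤ ‖lg r0‖) {m : ℕ}
    (hm : ‖lg r0‖ * pp ^ m = ‖lg y0‖) {b : Z} {s n : ℤ} (hn : IsCoprime n (pp : ℤ))
    (hb : b = s • γ (u j) + (pp ^ e * n) • κ (u j)) (hj : e + g ≤ j) :
    (pp ^ 2) ^ j = sp (γ (u j)) b * pp ^ e * Nat.card (γ.coprod κ).ker ∧
    D * Nat.card ↥(R ⊓ Tp Y) =
      (γ.coprod κ).range.relIndex (Zf pr) * (Nat.card (Tp Y) * pp ^ m) := by
  haveI := fin_ker hg
  constructor
  · have hk : (γ.coprod (κ.comp (mu Dv e))).ker ≤ Tk (Dv × Dv) j := fun p hp => by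
      have a : (p.1, pp ^ e • p.2) ∈ Tk (Dv × Dv) g := hg hp
      have a1 : pp ^ g • p.1 = 0 := congrArg Prod.fst a
      have a2 : pp ^ g • pp ^ e • p.2 = 0 := congrArg Prod.snd a
      rw [smul_smul, ← pow_add] at a2
      exact Prod.ext (pow_up (by omega) a1) (pow_up (by omega) a2)
    rw [← ker_sp _ _ hk, ker_scale, sp_congr (b := b) (b' := κ.comp (mu Dv e) (u j)) (m := s) hn
      (h.tor _) (by rw [hb, AddMonoidHom.comp_apply, mu_apply, map_nsmul]; module)]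
    ring
  · rw [← lev h.tor (γ.coprod κ) hD h1 h2, ← h.one h0 hx hm, ← mul_assoc, AddSubgroup.relIndex_mul_index]
    rintro _ ⟨p, rfl⟩
    exact add_mem (hγ _) (hκ _)

end Vale.Agent.P014U.Ba
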