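import Vale.Agent.P014T.Ba.Min
import Vale.Agent.P014U.Ba.Lev

/-!
# P014U, block B, abstract algebra (helper67): kernels of matrices modulo `pp ^ j` and minors
-/

set_option linter.all false

noncomputable section

namespace Vale.Agent.P014U.Ba

variable [Pp]

export Vale.Agent.P014T.Ba (Kr mem_Kr snf kr_unit kr_diag st st_mulVec st_map ad Q_ad C_ad ad_entry ad_ker det_ad plk ex_sec card_split sp_col)

open Matrix

theorem card_ann {x : ℤ_[pp]} (hx : x ≠ 0) {j : ℕ} (hj : x.valuation ≤ j) :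
    Nat.card {y : ZMod (pp ^ j) // PadicInt.toZModPow j x * y = 0} = pp ^ x.valuation := by
  have h1 := IsAddCyclic.card_nsmulAddMonoidHom_ker (ZMod (pp ^ j)) (pp ^ x.valuation)
  rw [Nat.card_zmod, Nat.gcd_eq_right (pow_dvd_pow pp hj)] at h1
  rw [← h1]
  refine Nat.card_congr (Equiv.subtypeEquivRight fun y => ?_)
  rw [AddMonoidHom.mem_ker, nsmulAddMonoidHom_apply, nsmul_eq_mul]
  conv_lhs => rw [PadicInt.unitCoeff_spec hx, map_mul, mul_assoc,
    ((PadicInt.unitCoeff hx).isUnit.map _).mul_right_eq_zero, map_pow, map_natCast]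
  push_cast
  rfl

theorem norm_val {x : ℤ_[pp]} (hx : x ≠ 0) : ‖x‖ * pp ^ x.valuation = 1 := by
  rw [PadicInt.norm_eq_zpow_neg_valuation hx, _root_.zpow_neg, zpow_natCast]
  exact inv_mul_cancel₀ (by have := pp_pos; positivity)

/-- the kernel of a square matrix modulo `pp ^ j` -/
theorem card_kr {n : Type} [Fintype n] [DecidableEq n] (M : Matrix n n ℤ_[pp]) {a j : ℕ}
    (h : ‖M.det‖ * pp ^ a = 1) (hj : a ≤ j) :
    Nat.card (Kr (M.map (PadicInt.toZModPow j))) = pp ^ a := by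
  have h0 : M.det ≠ 0 := fun h0 => by simp [h0] at h
  obtain ⟨P, P', c, hP, hP', e⟩ := snf M h0
  have ed := congrArg (fun X => ‖det X‖) e
  simp only [det_mul, norm_mul, PadicInt.isUnit_iff.1 hP, PadicInt.isUnit_iff.1 hP', det_diagonal,
    mul_one, one_mul, norm_prod] at ed
  have hc : ∀ i, c i ≠ 0 := fun i hi =>
    h0 (norm_eq_zero.1 (ed.trans (Finset.prod_eq_zero (Finset.mem_univ i) (by simp [hi]))))
  have hp : ∏ i, pp ^ (c i).valuation = pp ^ a := by
    have : (∏ i, ‖c i‖) * ∏ i, (pp : ℝ) ^ (c i).valuation = 1 := by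
      rw [← Finset.prod_mul_distrib]
      exact Finset.prod_eq_one fun i _ => norm_val (hc i)
    rw [← ed, ← h] at this
    exact_mod_cast mul_left_cancel₀ (norm_ne_zero_iff.2 h0) this
  have u : ∀ X : Matrix n n ℤ_[pp], IsUnit X.det → IsUnit (X.map (PadicInt.toZModPow j)).det :=
    fun X hX => by
      have := hX.map (PadicInt.toZModPow j)
      rwa [RingHom.map_det] at this
  rw [kr_unit (D := diagonal fun i => PadicInt.toZModPow j (c i)) (u P hP) (u P' hP') (by
    rw [← Matrix.map_mul, e, Matrix.map_mul, diagonal_map (map_zero _)]), kr_diag, ← hp]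
  refine Finset.prod_congr rfl fun i _ => card_ann (hc i) (le_trans ?_ hj)
  exact (Nat.pow_dvd_pow_iff_le_right one_lt).1
    (hp ▸ Finset.dvd_prod_of_mem _ (Finset.mem_univ i))

/-- **the bridge from minors to counts** -/
theorem min {ι κ : Type} [Fintype ι] [DecidableEq ι] [Fintype κ] [DecidableEq κ]
    (e : κ ≃ ι ⊕ Fin 2) (Q : Matrix ι κ ℤ_[pp]) (hQ : ∃ C, (st e Q C).det ≠ 0) :
    ∃ (C : Matrix (Fin 2) κ ℤ_[pp]) (V : Matrix κ (Fin 2) ℤ_[pp]) (a : ℕ),
      ‖(st e Q C).det‖ * pp ^ a = 1 ∧ (∀ C', (st e Q C).det ∣ (st e Q C').det) ∧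
      Q * V = 0 ∧ C * V = 1 ∧ (∀ U : Matrix κ (Fin 2) ℤ_[pp], Q * U = 0 → U = V * (C * U)) ∧
      (∀ j, a ≤ j → Nat.card (Kr (Q.map (PadicInt.toZModPow j))) = (pp ^ 2) ^ j * pp ^ a) ∧
      (∀ j, ∀ v ∈ Kr (Q.map (PadicInt.toZModPow j)), pp ^ a • v =
        V.map (PadicInt.toZModPow j) *ᵥ C.map (PadicInt.toZModPow j) *ᵥ (pp ^ a • v)) ∧
      ∀ (H : Matrix (Fin 2) (Fin 2) ℤ_[pp]) (b j : ℕ), ‖H.det‖ * pp ^ b = 1 → b ≤ j →
        sp (fun k => PadicInt.toZModPow j ((V * H) k 0))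
          (fun k => PadicInt.toZModPow j ((V * H) k 1)) * pp ^ b = (pp ^ 2) ^ j := by
  classical
  have hex : ∃ a, ∃ C, (st e Q C).det ≠ 0 ∧ (st e Q C).det.valuation = a :=
    ⟨_, hQ.choose, hQ.choose_spec, rfl⟩
  obtain ⟨C, h0, ha⟩ := Nat.find_spec hex
  have hm : ∀ C', (st e Q C).det ∣ (st e Q C').det := fun C' => by
    by_cases h' : (st e Q C').det = 0
    · rw [h']; exact dvd_zero _
    · have := Nat.find_min' hex ⟨C', h', rfl⟩
      rw [← ha, ← PadicInt.mem_span_pow_iff_le_valuation _ h', Ideal.mem_span_singleton] at this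
      rw [PadicInt.unitCoeff_spec h0]
      exact (PadicInt.unitCoeff h0).isUnit.mul_left_dvd.2 this
  obtain ⟨V, v1, v2, v3⟩ := ex_sec e Q h0 hm
  have f1 : ∀ j, Q.map (PadicInt.toZModPow j) * V.map (PadicInt.toZModPow j) = 0 := fun j => by
    rw [← Matrix.map_mul, v1, Matrix.map_zero _ (map_zero _)]
  have f2 : ∀ j, C.map (PadicInt.toZModPow j) * V.map (PadicInt.toZModPow j) = 1 := fun j => by
    rw [← Matrix.map_mul, v2, Matrix.map_one _ (map_zero _) (map_one _)]
  refine ⟨C, V, _, norm_val h0, hm, v1, v2, fun U hU => smul_right_injective _ h0 ?_,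
    fun j hj => ?_, fun j v hv => ?_, fun H b j hb hj => ?_⟩
  · show _ • _ = _ • _
    rw [← Matrix.smul_mul, v3, ad_ker e Q C U hU]
  · rw [card_split e _ (f1 j) (f2 j), ← st_map, card_kr _ (norm_val h0) hj, Nat.card_zmod,
      ← pow_mul, mul_comm j, pow_mul, mul_comm]
  · set π := PadicInt.toZModPow (p := pp) j
    have h1 : st e (Q.map π) (C.map π) *ᵥ (v - V.map π *ᵥ C.map π *ᵥ v) = 0 :=
      (st_mulVec e _ _ _).2 ⟨by
        rw [mulVec_sub, mem_Kr.1 hv, mulVec_mulVec, f1, zero_mulVec, sub_zero], by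
        rw [mulVec_sub, mulVec_mulVec, f2, one_mulVec, sub_self]⟩
    have h2 := congrArg (fun w => (st e (Q.map π) (C.map π)).adjugate *ᵥ w) h1
    simp only [mulVec_mulVec, adjugate_mul, mulVec_zero, smul_mulVec, one_mulVec] at h2
    rw [← st_map, ← RingHom.mapMatrix_apply, ← RingHom.map_det, PadicInt.unitCoeff_spec h0, map_mul,
      mul_smul, ((PadicInt.unitCoeff h0).isUnit.map _).smul_eq_zero, map_pow, map_natCast,
      ← Nat.cast_pow, Nat.cast_smul_eq_nsmul, smul_sub, sub_eq_zero] at h2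
    rw [mulVec_smul, mulVec_smul, mulVec_mulVec]
    exact h2
  · have h1 := sp_col ((V * H).map (PadicInt.toZModPow j))
    have h2 : Kr ((V * H).map (PadicInt.toZModPow j)) = Kr (H.map (PadicInt.toZModPow j)) := by
      ext w
      rw [mem_Kr, mem_Kr, Matrix.map_mul, ← mulVec_mulVec]
      refine ⟨fun h => ?_, fun h => by rw [h, mulVec_zero]⟩
      have := congrArg (fun x => C.map (PadicInt.toZModPow j) *ᵥ x) h
      simpa only [mulVec_mulVec, ← Matrix.mul_assoc, f2, Matrix.one_mul, mulVec_zero] using this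
    rw [h2, card_kr H hb hj, ← pow_mul, mul_comm j, pow_mul, mul_comm] at h1
    exact h1

end Vale.Agent.P014U.Ba
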