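import Vale.Agent.P014T.Ba.Spq
import Vale.Agent.P014U.Ba.Min

/-!
# P014U, block B, abstract algebra (helper67): specialisation of `W = α d` at `X = 0`
-/

set_option linter.all false

noncomputable section

namespace Vale.Agent.P014U.Ba

variable [Pp]

export Vale.Agent.P014T.Ba (sp_map cl det_cl mul_cl cl_mulVec pr_st ex_C all_C)

open Matrix Submodule Set

/-- `W = α d` over `ℤ₂` in terms of counts -/
theorem cnt_of {ι κ : Type} [Fintype ι] [DecidableEq ι] [Fintype κ] [DecidableEq κ]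
    (e : κ ≃ ι ⊕ Fin 2) (Q : Matrix ι κ ℤ_[pp]) {v w : κ → ℤ_[pp]} (hv : Q *ᵥ v = 0)
    (hw : Q *ᵥ w = 0) (ind : ∀ s t : ℤ_[pp], s • v + t • w = 0 → s = 0 ∧ t = 0) {α : ℤ_[pp]}
    (h : ∀ C, (C * cl v w).det = α * (st e Q C).det) :
    α ≠ 0 ∧ ∃ a : ℕ, (∀ j, a ≤ j → Nat.card (Kr (Q.map (PadicInt.toZModPow j))) = (pp ^ 2) ^ j * pp ^ a) ∧
      ∀ j, a + α.valuation ≤ j →
        sp (fun k => PadicInt.toZModPow j (v k)) (fun k => PadicInt.toZModPow j (w k)) *
          Nat.card (Kr (Q.map (PadicInt.toZModPow j))) * pp ^ α.valuation = (pp ^ 4) ^ j := by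
  obtain ⟨C1, h1⟩ := ex_C (cl v w) fun s hs => by
    obtain ⟨a, b⟩ := ind _ _ ((cl_mulVec v w s).symm.trans hs)
    funext i
    fin_cases i
    · exact a
    · exact b
  rw [h] at h1
  have hα := left_ne_zero_of_mul h1
  obtain ⟨C, V, a, ha, -, -, -, hU, hc, -, hs⟩ := min e Q ⟨C1, right_ne_zero_of_mul h1⟩
  refine ⟨hα, a, hc, fun j hj => ?_⟩
  have := hs (C * cl v w) (a + α.valuation) j (by
    rw [h, norm_mul, pow_add]
    calc _ = (‖(st e Q C).det‖ * pp ^ a) * (‖α‖ * pp ^ α.valuation) := by ring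
      _ = 1 := by rw [ha, norm_val hα, mul_one]) hj
  rw [← hU _ (mul_cl hv hw)] at this
  rw [hc j (by omega), show pp ^ 4 = pp ^ 2 * pp ^ 2 by ring, mul_pow]
  have t : sp (fun k => PadicInt.toZModPow j (v k)) (fun k => PadicInt.toZModPow j (w k)) *
      pp ^ (a + α.valuation) = (pp ^ 2) ^ j := this
  rw [pow_add] at t
  rw [← t]
  ring

/-- **specialisation**: `W x = α d` over a domain `Λ`, read through `f : Λ → ℤ₂` -/
theorem spq {Λ ι κ : Type} [CommRing Λ] [IsDomain Λ] [Fintype ι] [DecidableEq ι] [Fintype κ]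
    [DecidableEq κ] (f : Λ →+* ℤ_[pp]) (hf : Function.Surjective f) (e : κ ≃ ι ⊕ Fin 2)
    (Q : Matrix ι κ Λ) {v w : κ → Λ} (hv : Q *ᵥ v = 0) (hw : Q *ᵥ w = 0) {x : Fin 2 → κ → Λ}
    {d α : Λ} (hd : P004F.Alg.Pr ((κ → Λ) ⧸ (span Λ (range Q) ⊔ span Λ (range x))) d) (d0 : d ≠ 0)
    (h : (x 0 ⬝ᵥ v) * (x 1 ⬝ᵥ w) - (x 1 ⬝ᵥ v) * (x 0 ⬝ᵥ w) = α * d)
    (ind : ∀ s t : ℤ_[pp], (∀ k, s * f (v k) + t * f (w k) = 0) → s = 0 ∧ t = 0) :
    f α ≠ 0 ∧ ∃ a : ℕ, (∀ j, a ≤ j →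
      Nat.card (Kr (Q.map ((PadicInt.toZModPow j).comp f))) = (pp ^ 2) ^ j * pp ^ a) ∧
      ∀ j, a + (f α).valuation ≤ j →
        sp (fun k => PadicInt.toZModPow j (f (v k))) (fun k => PadicInt.toZModPow j (f (w k))) *
          Nat.card (Kr (Q.map ((PadicInt.toZModPow j).comp f))) * pp ^ (f α).valuation = (pp ^ 4) ^ j := by
  have p := pr_st e Q (Matrix.of x)
  obtain ⟨y, hy⟩ : Associated d (st e Q (Matrix.of x)).det :=
    associated_of_dvd_dvd (hd.dvd p.dt) (p.dvd hd.dt)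
  have h0 : (st e Q (Matrix.of x)).det ≠ 0 := hy ▸ mul_ne_zero d0 y.ne_zero
  have h1 := all_C e Q (mul_cl hv hw) h0 (α := α * (y⁻¹ : Λˣ)) (by
    rw [det_cl, h, ← hy, mul_comm d, ← mul_assoc, Units.inv_mul_cancel_right])
  have hm : ∀ z : κ → Λ, Q *ᵥ z = 0 → Q.map f *ᵥ (fun k => f (z k)) = 0 := fun z hz =>
    funext fun i => by
      have := RingHom.map_mulVec f Q z i
      rw [hz, Pi.zero_apply, map_zero] at this
      exact this.symm
  obtain ⟨a0, a, b1, b2⟩ := cnt_of e (Q.map f) (hm v hv) (hm w hw)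
    (fun s t hst => ind s t fun k => congrFun hst k) (α := f (α * (y⁻¹ : Λˣ))) fun C => by
      choose g hg using hf
      have e1 : (C.map g).map f = C := Matrix.ext fun i k => hg _
      have e2 : cl (fun k => f (v k)) (fun k => f (w k)) = (cl v w).map f := by
        ext k i; fin_cases i <;> rfl
      have := congrArg f (h1 (C.map g))
      rwa [map_mul, RingHom.map_det, RingHom.map_det, RingHom.mapMatrix_apply,
        RingHom.mapMatrix_apply, Matrix.map_mul, st_map, e1, ← e2] at this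
  have n0 : f α ≠ 0 := fun h => a0 (by rw [map_mul, h, zero_mul])
  have ev : (f (α * (y⁻¹ : Λˣ))).valuation = (f α).valuation := by
    have c1 := norm_val a0
    have c2 := norm_val n0
    rw [map_mul, norm_mul, PadicInt.isUnit_iff.1 ((y⁻¹).isUnit.map f), mul_one, ← c2,
      ← map_mul] at c1
    have := mul_left_cancel₀ (norm_ne_zero_iff.2 n0) c1
    exact Nat.pow_right_injective pp_prime.two_le (by exact_mod_cast this)
  rw [ev] at b2
  exact ⟨n0, a, b1, b2⟩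

end Vale.Agent.P014U.Ba
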