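import Vale.Agent.P014U.X4S.G.Defs

/-!
# P014U, block B, abstract algebra (helper67): the group `Dv = K / O` and finite duality
-/

set_option linter.all false

noncomputable section

namespace Vale.Agent.P014U.Ba

variable [Pp]

open Vale.Agent.P014U.X4S.Ga

theorem one_r : (1 : ℝ) < pp := by exact_mod_cast one_lt

theorem pos_r : (0 : ℝ) < pp := one_pos.trans one_r

/-- the group `ℚ_p / ℤ_p` -/
abbrev Dv : Type := K ⧸ O

section defs

variable (Z : Type) [AddCommGroup Z]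

/-- elements killed by `pp ^ k` -/
def Tk (k : ℕ) : AddSubgroup Z where
  carrier := {z | pp ^ k • z = 0}
  zero_mem' := smul_zero _
  add_mem' := fun {a b} ha hb => by
    have ha' : pp ^ k • a = 0 := ha
    have hb' : pp ^ k • b = 0 := hb
    show pp ^ k • (a + b) = 0
    rw [smul_add, ha', hb', add_zero]
  neg_mem' := fun {a} ha => by
    have ha' : pp ^ k • a = 0 := ha
    show pp ^ k • (-a) = 0
    rw [smul_neg, ha', neg_zero]

variable {Z}

theorem mem_Tk {k : ℕ} {z : Z} : z ∈ Tk Z k ↔ pp ^ k • z = 0 := Iff.rfl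

theorem pow_up {k j : ℕ} (h : k ≤ j) {z : Z} (hz : pp ^ k • z = 0) : pp ^ j • z = 0 := by
  obtain ⟨d, rfl⟩ := Nat.exists_eq_add_of_le h
  rw [add_comm, pow_add, mul_smul, hz, smul_zero]

theorem Tk_mono {k j : ℕ} (h : k ≤ j) : Tk Z k ≤ Tk Z j := fun _ hz => pow_up h hz

variable (Z)

/-- elements killed by a power of two -/
def Tp : AddSubgroup Z where
  carrier := {z | ∃ k : ℕ, pp ^ k • z = 0}
  zero_mem' := ⟨0, smul_zero _⟩
  add_mem' := fun {a b} ha hb => by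
    obtain ⟨k, hk⟩ := ha
    obtain ⟨j, hj⟩ := hb
    exact ⟨k + j, by
      rw [smul_add, pow_up (Nat.le_add_right k j) hk, pow_up (Nat.le_add_left j k) hj, add_zero]⟩
  neg_mem' := fun {a} ha => by
    obtain ⟨k, hk⟩ := ha
    exact ⟨k, by rw [smul_neg, hk, neg_zero]⟩

variable {Z}

theorem mem_Tp {z : Z} : z ∈ Tp Z ↔ ∃ k : ℕ, pp ^ k • z = 0 := Iff.rfl

/-- a finite group of two power torsion has an exponent -/
theorem ex_exp [Finite Z] (h : ∀ z : Z, ∃ k : ℕ, pp ^ k • z = 0) :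
    ∃ c : ℕ, ∀ z : Z, pp ^ c • z = 0 := by
  choose k hk using h
  obtain ⟨c, hc⟩ := (Set.finite_range k).bddAbove
  exact ⟨c, fun z => pow_up (hc ⟨z, rfl⟩) (hk z)⟩

theorem ex_expT [Finite (Tp Z)] : ∃ c : ℕ, ∀ z ∈ Tp Z, pp ^ c • z = 0 := by
  obtain ⟨c, hc⟩ := ex_exp (Z := Tp Z) fun z => by
    obtain ⟨k, hk⟩ := z.2
    exact ⟨k, Subtype.ext hk⟩
  exact ⟨c, fun z hz => congrArg Subtype.val (hc ⟨z, hz⟩)⟩

/-- odd integers are injective on two power torsion -/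
theorem odd_inj {n : ℤ} (hn : IsCoprime n (pp : ℤ)) {z : Z} (hz : z ∈ Tp Z) (h : n • z = 0) : z = 0 := by
  obtain ⟨k, hk⟩ := hz
  have hc : IsCoprime n ((pp : ℤ) ^ k) := hn.pow_right
  obtain ⟨a, b, hab⟩ := hc
  have h2 : ((pp : ℤ) ^ k) • z = 0 := by
    have : (((pp ^ k : ℕ) : ℤ)) • z = 0 := by rw [natCast_zsmul]; exact hk
    simpa using this
  calc z = (a * n + b * pp ^ k) • z := by rw [hab, one_smul]
    _ = 0 := by rw [add_smul, mul_smul, mul_smul, h, h2, smul_zero, smul_zero, add_zero]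

/-- a non zero element of two power order has a non zero multiple killed by two -/
theorem ex_two {z : Z} (hz : z ∈ Tp Z) (h0 : z ≠ 0) :
    ∃ j : ℕ, pp ^ j • z ≠ 0 ∧ pp ^ (j + 1) • z = 0 := by
  obtain ⟨k, hk⟩ := hz
  induction k with
  | zero => exact absurd (by simpa using hk) h0
  | succ k ih =>
    by_cases h : pp ^ k • z = 0
    · exact ih h
    · exact ⟨k, h, hk⟩

end defs

theorem mk_zero {x : K} : (QuotientAddGroup.mk x : Dv) = 0 ↔ ‖x‖ ≤ 1 :=
  QuotientAddGroup.eq_zero_iff x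

theorem norm_two_pow (k : ℕ) : ‖(pp : K) ^ k‖ = ((pp : ℝ) ^ k)⁻¹ := by
  have := Padic.norm_p (p := pp)
  rw [norm_pow, this, inv_pow]

theorem dv_tor (d : Dv) : d ∈ Tp Dv := by
  obtain ⟨x, rfl⟩ := QuotientAddGroup.mk_surjective d
  obtain ⟨k, hk⟩ := pow_unbounded_of_one_lt ‖x‖ one_r
  refine ⟨k, ?_⟩
  rw [← QuotientAddGroup.mk_nsmul, mk_zero, nsmul_eq_mul, norm_mul, Nat.cast_pow,
    norm_two_pow, inv_mul_le_iff₀ (by have := pp_pos; positivity), mul_one]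
  exact hk.le

theorem dv_div {n : ℕ} (hn : n ≠ 0) (d : Dv) : ∃ e : Dv, n • e = d := by
  obtain ⟨x, rfl⟩ := QuotientAddGroup.mk_surjective d
  refine ⟨QuotientAddGroup.mk (x / n), ?_⟩
  rw [← QuotientAddGroup.mk_nsmul, nsmul_eq_mul, mul_div_cancel₀ _ (by exact_mod_cast hn)]

/-- the class of `1 / pp ^ k` -/
def u (k : ℕ) : Dv := QuotientAddGroup.mk (((pp : K) ^ k)⁻¹)

theorem pow_u (j k : ℕ) : pp ^ j • u (j + k) = u k := by
  unfold u
  rw [← QuotientAddGroup.mk_nsmul, nsmul_eq_mul]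
  congr 1
  push_cast
  rw [pow_add]
  have : (pp : K) ≠ 0 := Nat.cast_ne_zero.2 pp_ne
  field_simp

theorem int_norm (n : ℤ) (k : ℕ) : ‖(n : K)‖ ≤ ((pp : ℝ) ^ k)⁻¹ ↔ (pp : ℤ) ^ k ∣ n := by
  have := Padic.norm_int_le_pow_iff_dvd (p := pp) n k
  simpa using this

theorem u_ord (n : ℤ) (k : ℕ) : n • u k = 0 ↔ (pp : ℤ) ^ k ∣ n := by
  unfold u
  rw [← QuotientAddGroup.mk_zsmul, mk_zero, zsmul_eq_mul, norm_mul, norm_inv, norm_two_pow,
    inv_inv, ← int_norm, ← le_div_iff₀ (by have := pp_pos; positivity), one_div]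

theorem u_ord' (n k : ℕ) : n • u k = 0 ↔ pp ^ k ∣ n := by
  rw [← natCast_zsmul, u_ord]
  exact_mod_cast Iff.rfl

theorem u_mem (k : ℕ) : u k ∈ Tk Dv k := (u_ord' _ _).2 dvd_rfl

theorem ex_int {x : K} (hx : ‖x‖ ≤ 1) (k : ℕ) : ∃ n : ℤ, ‖x - n‖ ≤ ((pp : ℝ) ^ k)⁻¹ := by
  obtain ⟨y, rfl⟩ : ∃ y : ℤ_[pp], (y : K) = x := ⟨⟨x, hx⟩, rfl⟩
  obtain ⟨n, hn⟩ := Metric.denseRange_iff.1 (PadicInt.denseRange_intCast (p := pp)) y
    ((pp : ℝ) ^ k)⁻¹ (by have := pp_pos; positivity)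
  refine ⟨n, ?_⟩
  rw [dist_eq_norm, PadicInt.norm_def] at hn
  simpa using hn.le

theorem tk_gen {k : ℕ} {d : Dv} (h : d ∈ Tk Dv k) : ∃ n : ℤ, d = n • u k := by
  obtain ⟨x, rfl⟩ := QuotientAddGroup.mk_surjective d
  rw [mem_Tk, ← QuotientAddGroup.mk_nsmul, mk_zero, nsmul_eq_mul] at h
  obtain ⟨n, hn⟩ := ex_int h k
  refine ⟨n, ?_⟩
  unfold u
  rw [← QuotientAddGroup.mk_zsmul, ← sub_eq_zero, ← QuotientAddGroup.mk_sub, mk_zero, zsmul_eq_mul]
  have : x - n * ((pp : K) ^ k)⁻¹ = (((pp ^ k : ℕ) : K) * x - n) * ((pp : K) ^ k)⁻¹ := by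
    push_cast
    have : (pp : K) ≠ 0 := Nat.cast_ne_zero.2 pp_ne
    field_simp
  rw [this, norm_mul, norm_inv, norm_two_pow, inv_inv, ← le_div_iff₀ (by have := pp_pos; positivity), one_div]
  exact hn

theorem tk_eq (k : ℕ) : Tk Dv k = AddSubgroup.zmultiples (u k) := by
  refine le_antisymm (fun d hd => ?_) (AddSubgroup.zmultiples_le_of_mem (u_mem k))
  obtain ⟨n, rfl⟩ := tk_gen hd
  exact ⟨n, rfl⟩

theorem ord_u (k : ℕ) : addOrderOf (u k) = pp ^ k :=
  Nat.dvd_antisymm (addOrderOf_dvd_of_nsmul_eq_zero (u_mem k))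
    ((u_ord' _ _).1 (addOrderOf_nsmul_eq_zero _))

theorem card_tk (k : ℕ) : Nat.card (Tk Dv k) = pp ^ k := by
  rw [tk_eq, Nat.card_zmultiples, ord_u]

instance fin_tk (k : ℕ) : Finite (Tk Dv k) :=
  Nat.finite_of_card_ne_zero (by rw [card_tk]; exact pow_ne_zero _ pp_ne)

/-- an element of exact order `pp ^ (k + 1)` generates -/
theorem gen_of {k : ℕ} {d : Dv} (h : d ∈ Tk Dv (k + 1)) (h' : d ∉ Tk Dv k) :
    Tk Dv (k + 1) = AddSubgroup.zmultiples d := by
  have hle : AddSubgroup.zmultiples d ≤ Tk Dv (k + 1) := AddSubgroup.zmultiples_le_of_mem h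
  refine (AddSubgroup.eq_of_le_of_card_ge hle ?_).symm
  rw [card_tk, Nat.card_zmultiples]
  exact (addOrderOf_eq_prime_pow (p := pp) h' h).ge

/-- subgroups of `Dv` are comparable with the `Tk` -/
theorem le_or (I : AddSubgroup Dv) (k : ℕ) : I ≤ Tk Dv k ∨ Tk Dv (k + 1) ≤ I := by
  by_cases h : I ≤ Tk Dv k
  · exact Or.inl h
  right
  obtain ⟨d, hd, hk⟩ := SetLike.not_le_iff_exists.1 h
  obtain ⟨j, h1, h2⟩ := ex_two ((Tp Dv).nsmul_mem (dv_tor d) (pp ^ k)) hk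
  have e1 : pp ^ j • d ∈ Tk Dv (k + 1) := by
    rw [mem_Tk, smul_smul, ← pow_add]
    rw [smul_smul, ← pow_add] at h2
    rwa [show k + 1 + j = j + 1 + k by ring]
  have e2 : pp ^ j • d ∉ Tk Dv k := by
    rw [mem_Tk, smul_comm]
    exact h1
  rw [gen_of e1 e2]
  exact AddSubgroup.zmultiples_le_of_mem (I.nsmul_mem hd _)

theorem hom_aux (n : ℕ) : ∀ (G : Type) [AddCommGroup G] [Finite G], Nat.card G = n →
    (∀ g : G, g ∈ Tp G) → Nat.card (G →+ Dv) ≠ 0 ∧ Nat.card (G →+ Dv) ≤ n := by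
  induction n using Nat.strong_induction_on with
  | _ n ih =>
  intro G _ _ hn ht
  by_cases hs : ∀ g : G, g = 0
  · have : Subsingleton (G →+ Dv) := ⟨fun a b => AddMonoidHom.ext fun g => by
      rw [hs g, map_zero, map_zero]⟩
    have h1 : Nat.card (G →+ Dv) = 1 := Nat.card_eq_one_iff_unique.2 ⟨this, ⟨0⟩⟩
    rw [h1, ← hn]
    exact ⟨one_ne_zero, Nat.card_pos⟩
  push Not at hs
  obtain ⟨g0, h0⟩ := hs
  obtain ⟨j, h1, h2⟩ := ex_two (ht g0) h0
  set g := pp ^ j • g0 with hg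
  have h3 : pp ^ 1 • g = 0 := by rw [hg, smul_smul, ← pow_add, add_comm]; exact h2
  have ho : addOrderOf g = pp ^ 1 := addOrderOf_eq_prime_pow (p := pp) (n := 0) (by simpa using h1) h3
  set H := AddSubgroup.zmultiples g with hH
  have cH : Nat.card H = pp := by rw [hH, Nat.card_zmultiples, ho, pow_one]
  have cG : Nat.card (G ⧸ H) * pp = n := by
    rw [← hn, ← cH]; exact (AddSubgroup.card_eq_card_quotient_mul_card_addSubgroup H).symm
  have hp : 0 < Nat.card (G ⧸ H) := Nat.card_pos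
  obtain ⟨i0, i1⟩ := ih (Nat.card (G ⧸ H)) (cG ▸ lt_mul_of_one_lt_right hp one_lt) (G ⧸ H) rfl fun q => by
    obtain ⟨x, rfl⟩ := QuotientAddGroup.mk_surjective q
    obtain ⟨k, hk⟩ := ht x
    exact ⟨k, by rw [← QuotientAddGroup.mk_nsmul, hk, QuotientAddGroup.mk_zero]⟩
  haveI := Nat.finite_of_card_ne_zero i0
  let ev : (G →+ Dv) →+ Dv := AddMonoidHom.eval g
  have r1 : ev.range ≤ Tk Dv 1 := by
    rintro _ ⟨φ, rfl⟩
    show pp ^ 1 • φ g = 0
    rw [← map_nsmul, h3, map_zero]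
  haveI : Finite ev.range := Finite.of_injective _ (AddSubgroup.inclusion_injective r1)
  have r2 : Nat.card ev.range ≤ pp := by
    have := AddSubgroup.card_le_of_le r1
    rwa [card_tk, pow_one] at this
  let f : (G ⧸ H →+ Dv) → ev.ker := fun ψ => ⟨ψ.comp (QuotientAddGroup.mk' H), by
    show ψ (QuotientAddGroup.mk g) = 0
    rw [(QuotientAddGroup.eq_zero_iff g).2 (AddSubgroup.mem_zmultiples g), map_zero]⟩
  have fs : Function.Surjective f := fun φ => ⟨QuotientAddGroup.lift H φ.1 (by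
    rintro _ ⟨m, rfl⟩
    have : φ.1 g = 0 := φ.2
    show φ.1 (m • g) = 0
    rw [map_zsmul, this, smul_zero]), Subtype.ext (AddMonoidHom.ext fun x => rfl)⟩
  haveI : Finite ev.ker := Finite.of_surjective f fs
  have k1 : Nat.card ev.ker ≤ Nat.card (G ⧸ H) := (Nat.card_le_card_of_surjective f fs).trans i1
  have e := AddSubgroup.card_mul_index ev.ker
  rw [AddSubgroup.index_ker] at e
  rw [← e]
  exact ⟨Nat.mul_ne_zero Nat.card_pos.ne' Nat.card_pos.ne', cG ▸ Nat.mul_le_mul k1 r2⟩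

theorem fin_hom {G : Type} [AddCommGroup G] [Finite G] (ht : ∀ g : G, g ∈ Tp G) :
    Finite (G →+ Dv) := Nat.finite_of_card_ne_zero (hom_aux _ G rfl ht).1

theorem card_hom {G : Type} [AddCommGroup G] [Finite G] (ht : ∀ g : G, g ∈ Tp G) :
    Nat.card (G →+ Dv) ≤ Nat.card G := (hom_aux _ G rfl ht).2

section fd

variable {T W : Type} [AddCommGroup T] [AddCommGroup W]

theorem fd0 [Finite T] (ht : ∀ t : T, t ∈ Tp T) (p : T →+ W →+ Dv) (hL : Function.Injective p)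
    (hR : Function.Injective p.flip) : Nat.card W = Nat.card T ∧ Function.Surjective p := by
  haveI := fin_hom ht
  haveI : Finite W := Finite.of_injective _ hR
  obtain ⟨c, hc⟩ := ex_exp ht
  have hw : ∀ w : W, w ∈ Tp W := fun w => ⟨c, hR (AddMonoidHom.ext fun t => by
    show p t (pp ^ c • w) = p t 0
    rw [map_nsmul, map_zero, ← AddMonoidHom.nsmul_apply, ← map_nsmul, hc, map_zero,
      AddMonoidHom.zero_apply])⟩
  haveI := fin_hom hw
  have a1 := (Nat.card_le_card_of_injective _ hR).trans (card_hom ht)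
  have a2 := Nat.card_le_card_of_injective _ hL
  have a3 := card_hom hw
  exact ⟨by omega, (hL.bijective_of_nat_card_le (by omega)).2⟩

/-- finite duality -/
theorem fd [Finite T] (ht : ∀ t : T, t ∈ Tp T) (p : T →+ W →+ Dv) :
    p.flip.ker.index = p.ker.index ∧
      ∀ ψ : W →+ Dv, (∀ w, (∀ t, p t w = 0) → ψ w = 0) → ∃ t, p t = ψ := by
  have hk : ∀ w, w ∈ p.flip.ker ↔ ∀ t, p t w = 0 := fun w =>
    ⟨fun h t => DFunLike.congr_fun h t, fun h => AddMonoidHom.ext h⟩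
  let p1 : T →+ (W ⧸ p.flip.ker →+ Dv) := AddMonoidHom.mk'
    (fun t => QuotientAddGroup.lift p.flip.ker (p t) fun w hw => (hk w).1 hw t) fun a b => by
      refine AddMonoidHom.ext fun q => ?_
      obtain ⟨w, rfl⟩ := QuotientAddGroup.mk_surjective q
      show p (a + b) w = p a w + p b w
      rw [map_add, AddMonoidHom.add_apply]
  let p2 : T ⧸ p.ker →+ (W ⧸ p.flip.ker →+ Dv) := QuotientAddGroup.lift p.ker p1 fun t h => by
    refine AddMonoidHom.ext fun q => ?_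
    obtain ⟨w, rfl⟩ := QuotientAddGroup.mk_surjective q
    exact DFunLike.congr_fun h w
  have e : ∀ t w, p2 (QuotientAddGroup.mk t) (QuotientAddGroup.mk w) = p t w := fun _ _ => rfl
  obtain ⟨c, s⟩ := fd0 (T := T ⧸ p.ker) (fun q => by
      obtain ⟨x, rfl⟩ := QuotientAddGroup.mk_surjective q
      obtain ⟨k, hk⟩ := ht x
      exact ⟨k, by rw [← QuotientAddGroup.mk_nsmul, hk, QuotientAddGroup.mk_zero]⟩) p2
    ((injective_iff_map_eq_zero _).2 fun q h => by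
      obtain ⟨t, rfl⟩ := QuotientAddGroup.mk_surjective q
      exact (QuotientAddGroup.eq_zero_iff t).2 (AddMonoidHom.ext fun w =>
        (e t w).symm.trans (DFunLike.congr_fun h _)))
    ((injective_iff_map_eq_zero _).2 fun q h => by
      obtain ⟨w, rfl⟩ := QuotientAddGroup.mk_surjective q
      exact (QuotientAddGroup.eq_zero_iff w).2 ((hk w).2 fun t =>
        (e t w).symm.trans (DFunLike.congr_fun h (QuotientAddGroup.mk t))))
  refine ⟨c, fun ψ hψ => ?_⟩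
  obtain ⟨q, hq⟩ := s (QuotientAddGroup.lift p.flip.ker ψ fun w hw => hψ w ((hk w).1 hw))
  obtain ⟨t, rfl⟩ := QuotientAddGroup.mk_surjective q
  exact ⟨t, AddMonoidHom.ext fun w => (e t w).symm.trans (DFunLike.congr_fun hq _)⟩

end fd

end Vale.Agent.P014U.Ba
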