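import Vale.Agent.P014T.Ba.Lrl
import Vale.Agent.P014U.Pp.Rn0
import Vale.Agent.P014U.Ba.Spq
import Vale.Agent.P014U.X4F.Pat.Vec

/-! # P014U: the limit of relations between framed cocycles -/

set_option linter.all false

open Matrix Filter PowerSeries Set

noncomputable section

namespace Vale.Agent.P014U.Pp

variable [Pp]

open Vale.Agent.P022 (GQ)
open Vale.Agent.P014U.X4F (La Rj cj mj)
open Vale.Agent.P004F.Pr (ac)
open Vale.Agent.P014U.X4F.Pat (U Sy U_ch)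
open Pq (Zq)
open Dr (Ch)
open Kq (M2)

namespace Lr

export Vale.Agent.P014T.Pp.Lr (two col lev det_rel cl_tr)

variable {I : Type} {R : ℕ → Type} [∀ j, CommRing (R j)] {p : ∀ j, La →+* R j} (hp : Sy p)

/-- the relation in the limit -/
theorem lim {v w w' : ∀ j, I → R j} {α β : ∀ j, R j}
    (k : ∀ᶠ j in U, ∃ l : R j, α j • w j = β j • w' j + l • v j) :
    ∃ l : La, hp.ur α • hp.uv w = hp.ur β • hp.uv w' + l • hp.uv v := by
  obtain ⟨l, e⟩ := U_ch k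
  exact ⟨hp.ur l, by rw [← hp.uv_smul, ← hp.uv_smul, ← hp.uv_smul, ← hp.uv_add]; exact hp.uv_ae e⟩

theorem um_cl (v w : ∀ j, I → R j) :
    hp.um (fun j => Ba.cl (v j) (w j)) = Ba.cl (hp.uv v) (hp.uv w) :=
  Matrix.ext fun a i => by fin_cases i <;> rfl

theorem um_eq (V : ∀ j, Matrix I (Fin 2) (R j)) :
    hp.um V = Ba.cl (hp.uv fun j => (V j)ᵀ 0) (hp.uv fun j => (V j)ᵀ 1) :=
  Matrix.ext fun a i => by fin_cases i <;> rfl

/-- **the determinants in the limit** -/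
theorem lim_det [Fintype I] [DecidableEq I] {v w w' : ∀ j, I → R j} {α β : ∀ j, R j}
    (k : ∀ᶠ j in U, ∃ l : R j, α j • w j = β j • w' j + l • v j) (C : Matrix (Fin 2) I La) :
    hp.ur α * (C * Ba.cl (hp.uv v) (hp.uv w)).det =
      hp.ur β * (C * Ba.cl (hp.uv v) (hp.uv w')).det :=
  (lim hp k).elim fun _ e => det_rel e C

/-- complex conjugation at level `j` -/
theorem cjj {b : Bs} (t : Tw b) (j : ℕ) : ∃ y, 1 + t.a j b.c = vecMulVec (cj _ ∘ b.gp) y := by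
  obtain ⟨y, e⟩ := b.cj
  refine ⟨cj _ ∘ y, ?_⟩
  rw [t.a_eq, t.hΨ, b.εc, (t.tq j).cj _ b.cc, ZMod.val_zero, pow_zero, map_one, one_mul, one_smul]
  have := congrArg (cj (j + 1)).mapMatrix e
  rw [map_add, map_one] at this
  exact this.trans (Matrix.ext fun i k => (cj (j + 1)).map_mul _ _)

end Lr

/-- **cohomologous columns have the same determinant in the limit**
(`BijOn ..` is `t.Pn j (Q j) (u j) _`) -/
theorem lrl {b : Bs} (t : Tw b) {r : ℕ} {Q : ∀ j, Matrix (Fin r) (Fin (r + 2)) (Rj (j + 1))}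
    {u : ∀ j, GQ → Matrix (Fin 2) (Fin (r + 2)) (Rj (j + 1))}
    {v w w' : ∀ j, Fin (r + 2) → Rj (j + 1)}
    (h : ∀ᶠ j in U, (∀ (M : Type) [AddCommGroup M] [Module (Rj (j + 1)) M],
      BijOn (fun (v : Fin (r + 2) → M) g => ac (u j g) v) {v | ac (Q j) v = 0}
        (Zq M (b.S ∪ t.T j) (t.a j) b.c)) ∧ Q j *ᵥ v j = 0 ∧
      (∀ g, u j g *ᵥ v j = (t.a j g - 1) *ᵥ (cj _ ∘ b.gp)) ∧ Q j *ᵥ w j = 0 ∧ Q j *ᵥ w' j = 0 ∧
      Ch ⊤ (t.a j) (fun g => u j g *ᵥ w j) fun g => u j g *ᵥ w' j)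
    (D : Matrix (Fin 2) (Fin (r + 2)) La) :
    (D * Ba.cl (Sy.succ.uv v) (Sy.succ.uv w)).det = (D * Ba.cl (Sy.succ.uv v) (Sy.succ.uv w')).det := by
  have e := Lr.lim_det Sy.succ (α := fun _ => 2) (β := fun _ => 2) (h.mono fun j e =>
    (Lr.cjj t j).elim fun _ hc => Lr.lev (e.1 _) hc e.2.1 e.2.2.1 e.2.2.2.1 e.2.2.2.2.1 e.2.2.2.2.2) D
  refine mul_left_cancel₀ (fun z => ?_) e
  have z2 : (C (2 : ℤ_[pp]) : La) = C 0 := by
    rw [map_ofNat, map_zero]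
    exact (map_ofNat Sy.succ.ur 2).symm.trans z
  exact two_ne_zero (C_injective z2)

end Vale.Agent.P014U.Pp
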